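import Vale.Agent.P314.Poly

namespace Vale.Agent.Results.P314.Hitting

open Vale.Agent.P314 Vale.Agent.P314.PIT

theorem result (F : Type*) [Field F] (c : F → List Bool) :
    ∃ H : (n s : ℕ) → List (Tuple F n), (∀ n s, IsHitting s (H n s)) ∧
      ∃ M : Turing.TM2ComputableInPolyTime encIn id
        (fun p : ℕ × ℕ => encSet c (H p.1 p.2)), ∀ k, Finite (M.tm.Γ k) :=
  ⟨fun n s => [tup F n s], fun _ s => hitting s, polyTime F c⟩

end Vale.Agent.Results.P314.Hitting
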